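import Vale.Agent.N300.Main

open scoped Manifold ContDiff
open Vale.Agent.P300 Vale.Agent.N300

/-- **Shafarevich's conjecture fails in every dimension `n ≥ 2`, and the universal covers are not
even weakly pseudoconvex.**

* (1) For every `n ≥ 2` there is a smooth connected projective variety of dimension `n` whose
  universal cover is not holomorphically convex, contains infinitely many points of one fibre joined
  by chains of compact rational curves (all holomorphic and all plurisubharmonic functions take the
  same value at these points), and has no plurisubharmonic exhaustion function.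
* (2) There is a smooth connected projective surface `X` such that this holds for the product of `X`
  with every smooth connected projective variety.
* (3) The modulus of a holomorphic function is plurisubharmonic. -/
theorem Vale.Agent.Results.P300.A0AllDimensions.result :
    (∀ n : ℕ, 2 ≤ n → ∃ (X : Type) (_ : TopologicalSpace X) (_ : ChartedSpace (Fin n → ℂ) X),
      IsProjVar (Fin n → ℂ) X ∧ CoverFails (Fin n → ℂ) X) ∧
    (∃ (X : Type) (_ : TopologicalSpace X) (_ : ChartedSpace (Fin 2 → ℂ) X),
      IsProjVar (Fin 2 → ℂ) X ∧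
      ∀ (m : ℕ) (Y : Type) (_ : TopologicalSpace Y) (_ : ChartedSpace (Fin m → ℂ) Y),
        IsProjVar (Fin m → ℂ) Y →
        ∃ (Z : Type) (_ : TopologicalSpace Z) (_ : ChartedSpace (Fin (2 + m) → ℂ) Z),
          IsProjVar (Fin (2 + m) → ℂ) Z ∧
          Nonempty (Diffeomorph 𝓘(ℂ, Fin (2 + m) → ℂ) (𝓘(ℂ, Fin 2 → ℂ).prod 𝓘(ℂ, Fin m → ℂ))
            Z (X × Y) ω) ∧ CoverFails (Fin (2 + m) → ℂ) Z) ∧
    ∀ (n : ℕ) (V : Type) (_ : TopologicalSpace V) (_ : ChartedSpace (Fin n → ℂ) V) (g : V → ℂ),
      ContMDiff 𝓘(ℂ, Fin n → ℂ) 𝓘(ℂ) ω g → IsPsh (Fin n → ℂ) fun y => ‖g y‖ := by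
  refine ⟨fun n hn => ?_, products, fun n V _ _ g hg => norm_psh hg⟩
  obtain ⟨X, _, _, h1, h2⟩ := all_dims n hn
  exact ⟨X, _, _, h1, fails_of_inf h1 h2⟩
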