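import Vale.Agent.N300X.Main

open scoped Manifold ContDiff
open Vale.Agent.P300 Vale.Agent.N300X

/-- **Shafarevich's conjecture fails for large fundamental groups in every dimension `n ≥ 4`.**

For every `n ≥ 4` there is a smooth connected projective variety of dimension `n` with large
fundamental group whose universal cover is not holomorphically convex and contains no compact
curve, but contains an immersed plane, lying over an abelian surface and in no compact set, on
which all holomorphic functions are constant. -/
theorem Vale.Agent.Results.P300.A0FourFolds.result :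
    ∀ n : ℕ, 4 ≤ n → ∃ (X : Type) (_ : TopologicalSpace X) (_ : ChartedSpace (Fin n → ℂ) X),
      IsVariety (Fin n → ℂ) X ∧ Large.HasLargeFundamentalGroup (Fin n → ℂ) X ∧
      (∃ (V : Type) (_ : TopologicalSpace V) (_ : ChartedSpace (Fin n → ℂ) V) (p : V → X),
        Final.IsUniversalCovering (Fin n → ℂ) p) ∧
      ∀ (V : Type) (_ : TopologicalSpace V) (_ : ChartedSpace (Fin n → ℂ) V) (p : V → X),
        Final.IsUniversalCovering (Fin n → ℂ) p → ¬ HolomorphicallyConvex (Fin n → ℂ) V ∧
          NoCompactCurve (Fin n → ℂ) V ∧ ∃ Φ, IsFlatPlane (Fin n → ℂ) p Φ :=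
  fun _ hn => main hn
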